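import Vale.Agent.P325.PTF

/-! P334 lower bound: the partition system analysis for regular label cover. -/

namespace Vale.Agent.P334.Low

open Vale.Agent.P325 Finset
open scoped BigOperators

theorem expect_prod_pi {B K : Type} [Fintype B] [DecidableEq B] [Fintype K] (g : B → K → ℝ) :
    (𝔼 z : B → K, ∏ b, g b (z b)) = ∏ b, 𝔼 k, g b k := by
  simp only [Fintype.expect_eq_sum_div_card]
  rw [prod_div_distrib, prod_univ_sum, Fintype.piFinset_univ, prod_const, card_univ,
    Fintype.card_fun]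
  push_cast
  rfl

/-- resampling one coordinate. -/
theorem expect_update {I E : Type} [Fintype I] [DecidableEq I] [Fintype E] [Nonempty E] (i : I)
    (h : (I → E) → ℝ) : (𝔼 e, h e) = 𝔼 e : I → E, 𝔼 a : E, h (Function.update e i a) := by
  have inv : Function.Involutive fun p : (I → E) × E => (Function.update p.1 i p.2, p.1 i) :=
    fun p => by simp
  rw [← expect_product', univ_product_univ,
    Fintype.expect_equiv inv.toPerm (fun p => h (Function.update p.1 i p.2)) (fun p => h p.1)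
      fun _ => rfl, ← univ_product_univ, expect_product]
  simp only [Fintype.expect_const]

/-- the uncovered part of one block. -/
theorem block {t : ℕ} {B : Type} [Fintype B] [DecidableEq B] (ht : 0 < t) (P : Fin t → Finset B)
    (hd : ∀ i j b, b ∈ P i → b ∈ P j → i = j) :
    (1 - 1 / (t : ℝ)) ^ (∑ i, (P i).card) ≤ 𝔼 z : B → Fin t, ind (∀ i, ∀ b ∈ P i, z b ≠ i) := by
  have t1 : (1 : ℝ) ≤ t := by exact_mod_cast ht
  have q0 : 0 ≤ 1 - 1 / (t : ℝ) := by
    rw [sub_nonneg, div_le_one (by linarith)]; exact t1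
  have q1 : 1 - 1 / (t : ℝ) ≤ 1 := by
    have : 0 ≤ 1 / (t : ℝ) := by positivity
    linarith
  have : Nonempty (Fin t) := ⟨⟨0, ht⟩⟩
  have e1 : ∀ z : B → Fin t, ind (∀ i, ∀ b ∈ P i, z b ≠ i) = ∏ b, ind (b ∉ P (z b)) := by
    intro z
    by_cases h : ∀ i, ∀ b ∈ P i, z b ≠ i
    · rw [ind_of h, prod_eq_one fun b _ => ind_of fun hb => h _ b hb rfl]
    · rw [ind_of_not h]
      push Not at h
      obtain ⟨i, b, hb, rfl⟩ := h
      exact (prod_eq_zero (mem_univ b) (ind_of_not (not_not.2 hb))).symm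
  simp only [e1]
  rw [expect_prod_pi fun b k => ind (b ∉ P k)]
  have e2 : ∀ b, (if b ∈ univ.biUnion P then 1 - 1 / (t : ℝ) else 1) ≤ 𝔼 k, ind (b ∉ P k) := by
    intro b
    split_ifs with hb
    · obtain ⟨i, -, hi⟩ := mem_biUnion.1 hb
      simp only [ind_not]
      rw [expect_sub_distrib, Fintype.expect_const,
        expect_congr rfl (g := fun k => if k = i then (1 : ℝ) else 0) fun k _ => by
          rw [← ind_eq_ite]
          exact ind_congr ⟨fun h => hd _ _ _ h hi, fun h => h ▸ hi⟩,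
        Fintype.expect_eq_sum_div_card]
      simp
    · rw [expect_congr rfl (g := fun _ => (1 : ℝ)) fun k _ =>
        ind_of fun h => hb (mem_biUnion.2 ⟨k, mem_univ _, h⟩), Fintype.expect_const]
  refine le_trans ?_ (prod_le_prod (fun b _ => by split_ifs <;> linarith) fun b _ => e2 b)
  rw [prod_ite, prod_const_one, mul_one, prod_const, filter_mem_eq_inter, univ_inter]
  exact pow_le_pow_of_le_one q0 q1 card_biUnion_le

theorem tangent {q : ℝ} (hq : 0 < q) (w t : ℕ) :
    q ^ t * (1 + ((w : ℝ) - t) * Real.log q) ≤ q ^ w := by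
  have h : q ^ w = q ^ t * Real.exp (((w : ℝ) - t) * Real.log q) := by
    rw [← Real.exp_log (pow_pos hq w), ← Real.exp_log (pow_pos hq t), ← Real.exp_add,
      Real.log_pow, Real.log_pow]
    congr 1; ring
  rw [h]
  exact mul_le_mul_of_nonneg_left (by linarith [Real.add_one_le_exp (((w : ℝ) - t) * Real.log q)])
    (pow_pos hq t).le

theorem exists_enum {A : Type} [Nonempty A] (W : ℕ) (s : Finset A) :
    ∃ F : Fin W → A, s.card ≤ W → ∀ a ∈ s, ∃ p, F p = a := by
  classical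
  refine ⟨fun p => s.toList.getD p (Classical.arbitrary A), fun h a ha => ?_⟩
  obtain ⟨n, hn, rfl⟩ := List.getElem_of_mem (mem_toList.2 ha)
  refine ⟨⟨n, by rw [length_toList] at hn; omega⟩, ?_⟩
  exact List.getD_eq_getElem _ _ hn

theorem feige {Y E X A B : Type} [Fintype Y] [Nonempty Y] [Fintype E] [Nonempty E] [Fintype A]
    [Nonempty A] [Fintype B] [DecidableEq B] (nb : Y → E → X)
    (hinj : ∀ e y y', nb y e = nb y' e → y = y') (π : Y → E → A → B) {δ : ℝ} (hδ : 0 ≤ δ)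
    (hs : ∀ (f : X → A) (g : Y → B), (𝔼 y, 𝔼 e, ind (π y e (f (nb y e)) = g y)) ≤ δ)
    (t W : ℕ) (ht : 2 ≤ t) (S : Finset (Fin t × X × A)) (hS : S.card ≤ t * Fintype.card Y) :
    (1 - 1 / (t : ℝ)) ^ t - (1 - 1 / (t : ℝ)) ^ W - (t * W) ^ 2 * δ ≤
      𝔼 y, 𝔼 e : Fin t → E, 𝔼 z : B → Fin t,
        ind (∀ i a, (i, nb y (e i), a) ∈ S → z (π y (e i) a) ≠ i) := by
  classical
  have t2 : (2 : ℝ) ≤ t := by exact_mod_cast ht
  set q : ℝ := 1 - 1 / (t : ℝ) with hq
  have q0 : 0 < q := by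
    rw [hq, sub_pos, div_lt_one (by linarith)]; linarith
  have q1 : q ≤ 1 := by
    have : 0 ≤ 1 / (t : ℝ) := by positivity
    linarith
  let Ls : Fin t → X → Finset A := fun i x => univ.filter fun a => (i, x, a) ∈ S
  choose en hen using fun i x => exists_enum W (Ls i x)
  let w : Y → (Fin t → E) → ℕ := fun y e => ∑ i, (Ls i (nb y (e i))).card
  let c : Y → (Fin t → E) → (Fin t × Fin W) × Fin t × Fin W → ℝ := fun y e r =>
    ind (r.1.1 ≠ r.2.1 ∧ π y (e r.1.1) (en r.1.1 (nb y (e r.1.1)) r.1.2) =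
      π y (e r.2.1) (en r.2.1 (nb y (e r.2.1)) r.2.2))
  have pw : ∀ y e, q ^ t * (1 + ((w y e : ℝ) - t) * Real.log q) - q ^ W - ∑ r, c y e r ≤
      𝔼 z : B → Fin t, ind (∀ i a, (i, nb y (e i), a) ∈ S → z (π y (e i) a) ≠ i) := by
    intro y e
    have h0 : 0 ≤ 𝔼 z : B → Fin t, ind (∀ i a, (i, nb y (e i), a) ∈ S → z (π y (e i) a) ≠ i) :=
      expect_nonneg fun _ _ => ind_nonneg _
    have c0 : 0 ≤ ∑ r, c y e r := sum_nonneg fun _ _ => ind_nonneg _
    have h1 := tangent q0 (w y e) t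
    have hW : 0 < q ^ W := pow_pos q0 W
    by_cases hw : W ≤ w y e
    · linarith [pow_le_pow_of_le_one q0.le q1 hw]
    by_cases hd : ∀ i j b, b ∈ (Ls i (nb y (e i))).image (π y (e i)) →
        b ∈ (Ls j (nb y (e j))).image (π y (e j)) → i = j
    · have h2 := block (by omega) _ hd
      have h3 : q ^ w y e ≤ q ^ ∑ i, ((Ls i (nb y (e i))).image (π y (e i))).card :=
        pow_le_pow_of_le_one q0.le q1 (sum_le_sum fun i _ => card_image_le)
      have h4 : (𝔼 z : B → Fin t, ind (∀ i, ∀ b ∈ (Ls i (nb y (e i))).image (π y (e i)), z b ≠ i))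
          = 𝔼 z : B → Fin t, ind (∀ i a, (i, nb y (e i), a) ∈ S → z (π y (e i) a) ≠ i) :=
        expect_congr rfl fun z _ => ind_congr (by simp [Ls])
      linarith
    · push Not at hd
      obtain ⟨i, j, b, hi, hj, hij⟩ := hd
      obtain ⟨a, ha, hab⟩ := mem_image.1 hi
      obtain ⟨a', ha', hab'⟩ := mem_image.1 hj
      have hle : ∀ k, (Ls k (nb y (e k))).card ≤ W := fun k =>
        (single_le_sum (f := fun k => (Ls k (nb y (e k))).card) (fun _ _ => Nat.zero_le _)
          (mem_univ k)).trans (not_le.1 hw).le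
      obtain ⟨p, hp⟩ := hen _ _ (hle i) a ha
      obtain ⟨p', hp'⟩ := hen _ _ (hle j) a' ha'
      have h2 : c y e ((i, p), j, p') = 1 := ind_of ⟨hij, by simp only [hp, hp', hab, hab']⟩
      have h3 := single_le_sum (f := c y e) (fun _ _ => ind_nonneg _) (mem_univ ((i, p), j, p'))
      linarith [pow_le_one₀ (n := w y e) q0.le q1]
  have hw : (𝔼 y, 𝔼 e, (w y e : ℝ)) ≤ t := by
    rw [expect_comm]
    refine expect_le univ_nonempty fun e _ => ?_
    have hY : (0 : ℝ) < Fintype.card Y := by exact_mod_cast Fintype.card_pos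
    rw [Fintype.expect_eq_sum_div_card, div_le_iff₀ hY]
    have h1 : ∑ y, w y e =
        (univ.filter fun p : Y × Fin t × A => (p.2.1, nb p.1 (e p.2.1), p.2.2) ∈ S).card := by
      simp only [w, Ls, card_filter, Fintype.sum_prod_type]
    have h2 : (univ.filter fun p : Y × Fin t × A => (p.2.1, nb p.1 (e p.2.1), p.2.2) ∈ S).card ≤
        S.card := by
      refine card_le_card_of_injOn (fun p => (p.2.1, nb p.1 (e p.2.1), p.2.2))
        (fun p hp => by simpa using hp) ?_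
      rintro ⟨y, i, a⟩ - ⟨y', i', a'⟩ - h
      simp only [Prod.mk.injEq] at h
      obtain ⟨rfl, h, rfl⟩ := h
      rw [hinj _ _ _ h]
    exact_mod_cast h1 ▸ h2.trans hS
  have hc : ∀ r, (𝔼 y, 𝔼 e, c y e r) ≤ δ := by
    rintro ⟨⟨i, p⟩, j, p'⟩
    by_cases hij : i = j
    · refine le_trans (le_of_eq ?_) hδ
      exact expect_eq_zero fun y _ => expect_eq_zero fun e _ => ind_of_not fun h => h.1 hij
    · rw [expect_congr rfl fun y _ => expect_update i _, expect_comm]
      refine expect_le univ_nonempty fun e _ => le_trans ?_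
        (hs (fun x => en i x p) fun y => π y (e j) (en j (nb y (e j)) p'))
      refine expect_le_expect fun y _ => expect_le_expect fun a _ => ind_mono fun h => ?_
      simpa [Function.update_of_ne (Ne.symm hij)] using h.2
  refine le_trans ?_ (expect_le_expect fun y _ => expect_le_expect fun e _ => pw y e)
  have h5 : (𝔼 y, 𝔼 e, ∑ r, c y e r) ≤ (t * W) ^ 2 * δ := by
    simp only [expect_sum_comm]
    refine (sum_le_card_nsmul _ _ δ fun r _ => hc r).trans (le_of_eq ?_)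
    simp [sq]
  have h6 : Real.log q ≤ 0 := Real.log_nonpos q0.le q1
  simp only [expect_sub_distrib, expect_add_distrib, Fintype.expect_const, ← mul_expect,
    ← expect_mul]
  have h7 : 0 ≤ q ^ t * (((𝔼 y, 𝔼 e, (w y e : ℝ)) - t) * Real.log q) :=
    mul_nonneg (pow_pos q0 t).le (mul_nonneg_of_nonpos_of_nonpos (by linarith) h6)
  nlinarith

/-- the parameters. -/
theorem params {δ : ℝ} (hδ : 0 < δ) : ∃ (t W : ℕ) (ε : ℝ), 2 ≤ t ∧ 0 < ε ∧
    1 / Real.exp 1 - δ ≤ (1 - 1 / (t : ℝ)) ^ t - (1 - 1 / (t : ℝ)) ^ W - (t * W) ^ 2 * ε := by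
  obtain ⟨n, hn⟩ := exists_nat_gt (3 / δ)
  have n0 : (0 : ℝ) ≤ n := Nat.cast_nonneg n
  set t : ℕ := n + 2 with ht
  have htr : (t : ℝ) = n + 2 := by rw [ht]; push_cast; ring
  have q0 : 0 < 1 - 1 / (t : ℝ) := by
    rw [sub_pos, div_lt_one (by linarith)]; linarith
  have q1 : 1 - 1 / (t : ℝ) < 1 := by
    have : 0 < 1 / (t : ℝ) := by rw [htr]; positivity
    linarith
  obtain ⟨W, hW⟩ := exists_pow_lt_of_lt_one (show 0 < δ / 3 by positivity) q1
  refine ⟨t, W, δ / 3 / ((t * W) ^ 2 + 1), by omega, by positivity, ?_⟩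
  have h1 : ((t : ℝ) * W) ^ 2 * (δ / 3 / ((t * W) ^ 2 + 1)) ≤ δ / 3 := by
    rw [mul_div_assoc', div_le_iff₀ (by positivity)]; nlinarith
  have h2 : Real.exp (-(1 / ((n : ℝ) + 1))) ≤ 1 - 1 / (t : ℝ) := by
    have := Real.add_one_le_exp (1 / ((n : ℝ) + 1))
    rw [Real.exp_neg, inv_le_comm₀ (Real.exp_pos _) q0]
    refine le_trans (le_of_eq ?_) this
    have e : 1 - 1 / ((n : ℝ) + 2) = (n + 1) / (n + 2) := by field_simp; ring
    rw [htr, e, inv_div]; field_simp; ring
  have h3 : 1 / Real.exp 1 ≤ (1 - 1 / (t : ℝ)) ^ (n + 1) := by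
    refine le_trans (le_of_eq ?_) (pow_le_pow_left₀ (Real.exp_pos _).le h2 (n + 1))
    rw [← Real.exp_nat_mul, one_div, ← Real.exp_neg]
    congr 1; push_cast; field_simp
  have h4 : (1 - 1 / (t : ℝ)) ^ (n + 1) ≤ 1 := pow_le_one₀ q0.le q1.le
  have h5 : 1 / (t : ℝ) ≤ δ / 3 := by
    rw [div_le_iff₀ (by linarith), htr]
    rw [div_lt_iff₀ hδ] at hn
    nlinarith
  have h6 : (1 - 1 / (t : ℝ)) ^ t = (1 - 1 / (t : ℝ)) ^ (n + 1) * (1 - 1 / (t : ℝ)) := by
    rw [← pow_succ]
  have h7 : 0 < 1 / (t : ℝ) := by rw [htr]; positivity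
  nlinarith

end Vale.Agent.P334.Low
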