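import Vale.Agent.P325.BaseFinal
import Vale.Agent.P334.Stmt
import Vale.Agent.P334.QPT

/-! P334 lower bound: the metric with distances 1, 2, 3 of a covering relation. -/

namespace Vale.Agent.P334.Low

open Vale.Agent.Lib.H23 Vale.Agent.P333 Vale.Agent.P325 Finset Enc
open scoped BigOperators

/-- Points below `nF` are facilities, the others are clients. -/
def dd (nF : ℕ) (cv : ℕ → ℕ → Bool) (u v : ℕ) : ℚ :=
  if u = v then 0 else if u < nF then (if v < nF then 2 else bif cv u (v - nF) then 1 else 3)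
  else if v < nF then (bif cv v (u - nF) then 1 else 3) else 2

/-- The instance. -/
def inst (nF nJ k : ℕ) (cv : ℕ → ℕ → Bool) : Inst :=
  ((List.range (nF + nJ)).map fun u => (List.range (nF + nJ)).map fun v => dd nF cv u v,
    (List.range nJ).map (nF + ·), List.range nF, k)

variable {nF nJ k : ℕ} {cv : ℕ → ℕ → Bool}

theorem len_inst : (inst nF nJ k cv).1.length = nF + nJ := by simp [inst]

theorem dist_inst {u v : ℕ} (hu : u < nF + nJ) (hv : v < nF + nJ) :
    dist (inst nF nJ k cv) u v = dd nF cv u v := by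
  simp [dist, inst, hu, hv]

theorem dd_symm (u v : ℕ) : dd nF cv u v = dd nF cv v u := by
  unfold dd
  by_cases h : u = v
  · rw [h]
  · rw [if_neg h, if_neg (Ne.symm h)]
    split_ifs <;> rfl

theorem dd_self (u : ℕ) : dd nF cv u u = 0 := if_pos rfl

theorem bif_bd (b : Bool) : (1 : ℚ) ≤ (bif b then 1 else 3) ∧ (bif b then 1 else 3 : ℚ) ≤ 3 := by
  cases b <;> norm_num

theorem dd_ge {u v : ℕ} (h : u ≠ v) : 1 ≤ dd nF cv u v := by
  unfold dd
  rw [if_neg h]
  split_ifs <;> first | exact (bif_bd _).1 | norm_num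

theorem dd_le (u v : ℕ) : dd nF cv u v ≤ 3 := by
  unfold dd
  split_ifs <;> first | exact (bif_bd _).2 | norm_num

theorem dd_same {u v : ℕ} (h : u ≠ v) (h' : u < nF ↔ v < nF) : dd nF cv u v = 2 := by
  unfold dd
  rw [if_neg h]
  split_ifs with h1 h2 h2 <;> first | rfl | tauto

theorem dd_tri (u v w : ℕ) : dd nF cv u w ≤ dd nF cv u v + dd nF cv v w := by
  by_cases h1 : u = v
  · rw [h1, dd_self, zero_add]
  by_cases h2 : v = w
  · rw [h2, dd_self, add_zero]
  have a1 := dd_ge (nF := nF) (cv := cv) h1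
  have a2 := dd_ge (nF := nF) (cv := cv) h2
  have a3 := dd_le (nF := nF) (cv := cv) u w
  by_cases h3 : u = w
  · rw [← h3, dd_self]; rw [← h3] at a2; linarith
  by_cases h4 : u < nF ↔ v < nF
  · linarith [dd_same (cv := cv) h1 h4]
  by_cases h5 : v < nF ↔ w < nF
  · linarith [dd_same (cv := cv) h2 h5]
  linarith [dd_same (nF := nF) (cv := cv) h3 (by tauto)]

theorem valid_inst (h1 : 1 ≤ k) (h2 : k ≤ nF) : Valid (inst nF nJ k cv) where
  square := by simp [inst]
  zero_iff u hu v hv := by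
    rw [len_inst] at hu hv
    rw [dist_inst hu hv]
    exact ⟨fun h => by_contra fun h' => by linarith [dd_ge (nF := nF) (cv := cv) h'],
      fun h => h ▸ dd_self _⟩
  symm u hu v hv := by
    rw [len_inst] at hu hv
    rw [dist_inst hu hv, dist_inst hv hu, dd_symm]
  triangle u hu v hv w hw := by
    rw [len_inst] at hu hv hw
    rw [dist_inst hu hv, dist_inst hv hw, dist_inst hu hw]
    exact dd_tri u v w
  clients := ⟨List.nodup_range.map (add_right_injective nF), by simp [inst]⟩
  facilities := ⟨List.nodup_range, fun i hi => by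
    have : i < nF := List.mem_range.1 hi
    rw [len_inst]; omega⟩
  k_pos := h1
  k_le := by simpa [inst] using h2

theorem feas_inst {S : Finset ℕ} : Feas (inst nF nJ k cv) S ↔ (∀ u ∈ S, u < nF) ∧ S.card ≤ k := by
  simp [Feas, inst, subset_iff]

theorem cost_inst {S : Finset ℕ} (hS : S.Nonempty) (h : ∀ u ∈ S, u < nF) :
    (cost (inst nF nJ k cv) S hS : ℝ) =
      nJ + 2 * ∑ j ∈ range nJ, ind (∀ u ∈ S, cv u j = false) := by
  have e : (inst nF nJ k cv).2.1.toFinset = (range nJ).map (addLeftEmbedding nF) := by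
    ext j; simp [inst]
  rw [cost, e, sum_map, Rat.cast_sum, mul_sum, ← mul_one (nJ : ℝ), ← nsmul_eq_mul]
  conv_rhs => rw [← card_range nJ, ← sum_const, card_range, ← sum_add_distrib]
  refine sum_congr rfl fun j hj => ?_
  have d : ∀ u ∈ S, dist (inst nF nJ k cv) (addLeftEmbedding nF j) u = bif cv u j then 1 else 3 := by
    intro u hu
    have := h u hu
    have := mem_range.1 hj
    rw [addLeftEmbedding_apply, dist_inst (by omega) (by omega), dd, if_neg (by omega),
      if_neg (by omega), if_pos (by omega), Nat.add_sub_cancel_left]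
  rw [inf'_congr hS rfl d]
  by_cases hc : ∀ u ∈ S, cv u j = false
  · rw [ind_of hc, inf'_congr hS rfl (g := fun _ => 3) fun u hu => by rw [hc u hu]; rfl, inf'_const]
    norm_num
  · rw [ind_of_not hc]
    push Not at hc
    obtain ⟨u, hu, hc⟩ := hc
    rw [le_antisymm ((inf'_le _ hu).trans (le_of_eq (by rw [Bool.ne_false_iff.1 hc]; rfl)))
      (le_inf' hS _ fun u _ => (bif_bd _).1)]
    norm_num

theorem pt_inst {α : Type} [Enc α] {nF nJ k : α → ℕ} {cv : α → ℕ → ℕ → Bool} (hF : PU nF)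
    (hJ : PU nJ) (hk : PT k) (hc : PT fun p : α × ℕ × ℕ => cv p.1 p.2.1 p.2.2) :
    PT fun x => inst (nF x) (nJ x) (k x) (cv x) := by
  have n : PT fun p : (α × ℕ) × ℕ => nF p.1.1 := hF.pt.comp PT.fst'.fst
  have u : PT fun p : (α × ℕ) × ℕ => p.1.2 := PT.fst'.snd
  have v : PT fun p : (α × ℕ) × ℕ => p.2 := PT.snd'
  have hd : PT fun p : (α × ℕ) × ℕ => dd (nF p.1.1) (cv p.1.1) p.1.2 p.2 :=
    P325.pt_ite (pt_decEq u v) (PT.const 0) (P325.pt_ite (pt_decLt u n)
      (P325.pt_ite (pt_decLt v n) (PT.const 2) (PT.cond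
        (hc.comp (PT.fst'.fst.pair (u.pair (PT.sub v n)))) (PT.const 1) (PT.const 3)))
      (P325.pt_ite (pt_decLt v n) (PT.cond
        (hc.comp (PT.fst'.fst.pair (v.pair (PT.sub u n)))) (PT.const 1) (PT.const 3)) (PT.const 2)))
  refine PT.pair (PT.map (f := fun x u => (List.range (nF x + nJ x)).map fun v =>
      dd (nF x) (cv x) u v) (PT.map (f := fun (p : α × ℕ) v => dd (nF p.1) (cv p.1) p.2 v) hd
      ((hF.add hJ).comp PT.fst').range) (hF.add hJ).range)
    (PT.pair (PT.map (f := fun x j => nF x + j) (PT.add (hF.pt.comp PT.fst') PT.snd') hJ.range)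
      (PT.pair hF.range hk))

theorem ser_rat (q : ℚ) : ser (enc q) = bRat q :=
  ser_pair (ser_pair ser_bool ser_nat) ser_nat ((decide (q.num < 0), q.num.natAbs), q.den)

theorem ser_inst (I : Inst) : ser (enc I) = codeInst I :=
  ser_pair (ser_list (ser_list ser_rat)) (ser_pair (ser_list ser_nat)
    (ser_pair (ser_list ser_nat) ser_nat)) I

end Vale.Agent.P334.Low
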