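import Vale.Agent.P325.PTF

/-! P334 lower bound: cyclic shifts inside the classes of equal keys (regularisation). -/

namespace Vale.Agent.P334.Low

open Vale.Agent.Lib.H23 Vale.Agent.P333 Vale.Agent.P325 Finset
open scoped BigOperators

/-- the indices with the same key as `c`. -/
def cl (K : List ℕ) (c : ℕ) : List ℕ :=
  (List.range K.length).filter fun j => decide (K.getD j 0 = K.getD c 0)

/-- position of `c` in its class. -/
def pos (K : List ℕ) (c : ℕ) : ℕ := (cl K c).countP fun j => decide (j < c)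

/-- shift by `s` places inside the class. -/
def sh (K : List ℕ) (c s : ℕ) : ℕ := (cl K c).getD ((pos K c + s) % (cl K c).length) 0

theorem pt_cl {α : Type} [Enc α] {K : α → List ℕ} {c : α → ℕ} (hK : PT K) (hc : PT c) :
    PT fun x => cl (K x) (c x) :=
  pt_filter (f := fun x j => decide ((K x).getD j 0 = (K x).getD (c x) 0))
    (pt_decEq (PT.getD (hK.comp PT.fst') PT.snd' (PT.const 0))
      (PT.getD (hK.comp PT.fst') (hc.comp PT.fst') (PT.const 0))) (pt_rangeLen hK)

theorem pt_sh {α : Type} [Enc α] {K : α → List ℕ} {c s : α → ℕ} (hK : PT K) (hc : PT c)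
    (hs : PT s) : PT fun x => sh (K x) (c x) (s x) :=
  PT.getD (pt_cl hK hc) (pt_mod (PT.add (pt_countP (f := fun x j => decide (j < c x))
    (pt_decLt PT.snd' (hc.comp PT.fst')) (pt_cl hK hc)) hs) (pt_cl hK hc).length) (PT.const 0)

variable {K : List ℕ} {c c' s : ℕ}

theorem mem_cl {j : ℕ} : j ∈ cl K c ↔ j < K.length ∧ K.getD j 0 = K.getD c 0 := by
  simp [cl, -List.getD_eq_getElem?_getD]

theorem cl_congr (h : K.getD c 0 = K.getD c' 0) : cl K c = cl K c' := by rw [cl, cl, h]

theorem cl_sorted (K : List ℕ) (c : ℕ) : (cl K c).Pairwise (· < ·) :=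
  List.pairwise_lt_range.filter _

theorem cl_nodup (K : List ℕ) (c : ℕ) : (cl K c).Nodup := List.nodup_range.filter _

theorem countP_lt_sorted {l : List ℕ} (hl : l.Pairwise (· < ·)) {i : ℕ} (hi : i < l.length) :
    l.countP (fun j => decide (j < l[i])) = i := by
  induction l generalizing i with
  | nil => simp at hi
  | cons a l ih =>
    rw [List.pairwise_cons] at hl
    cases i with
    | zero =>
      rw [List.countP_eq_zero]
      intro b hb
      rcases List.mem_cons.1 hb with rfl | hb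
      · simp
      · simpa using (hl.1 b hb).le
    | succ i =>
      simp only [List.getElem_cons_succ]
      rw [List.countP_cons, ih hl.2 (by simpa using hi)]
      simp [hl.1 _ (List.getElem_mem _)]

theorem pos_spec (hc : c < K.length) :
    pos K c < (cl K c).length ∧ (cl K c).getD (pos K c) 0 = c := by
  obtain ⟨i, hi, e⟩ := List.getElem_of_mem (mem_cl.2 ⟨hc, rfl⟩)
  have h := countP_lt_sorted (cl_sorted K c) hi
  rw [e] at h
  rw [pos, h, List.getD_eq_getElem _ _ hi]
  exact ⟨hi, e⟩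

theorem sh_mem (hc : c < K.length) (s : ℕ) : sh K c s ∈ cl K c := by
  have h := Nat.mod_lt (pos K c + s) (Nat.zero_lt_of_lt (pos_spec hc).1)
  rw [sh, List.getD_eq_getElem _ _ h]
  exact List.getElem_mem _

theorem getD_inj {l : List ℕ} (hl : l.Nodup) {i j : ℕ} (hi : i < l.length) (hj : j < l.length)
    (h : l.getD i 0 = l.getD j 0) : i = j := by
  rw [List.getD_eq_getElem _ _ hi, List.getD_eq_getElem _ _ hj] at h
  exact (hl.getElem_inj_iff).1 h

theorem sh_inj (hc : c < K.length) (hc' : c' < K.length) (h : sh K c s = sh K c' s) : c = c' := by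
  have e : cl K c = cl K c' :=
    cl_congr ((mem_cl.1 (sh_mem hc s)).2.symm.trans (h ▸ (mem_cl.1 (sh_mem hc' s)).2))
  obtain ⟨p1, p2⟩ := pos_spec hc
  obtain ⟨p3, p4⟩ := pos_spec hc'
  rw [sh, sh, e] at h
  rw [e] at p1 p2
  have d0 := Nat.zero_lt_of_lt p1
  have h1 := getD_inj (cl_nodup K c') (Nat.mod_lt _ d0) (Nat.mod_lt _ d0) h
  have h2 : pos K c = pos K c' := (Nat.ModEq.add_right_cancel' s h1).eq_of_lt_of_lt p1 p3
  rw [← p2, h2, p4]

theorem sh_count (hc : c < K.length) (x : ℕ) :
    ((range K.length).filter fun s => sh K c s = x).card * (cl K c).length ≤ 2 * K.length := by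
  have d0 := Nat.zero_lt_of_lt (pos_spec hc).1
  have dm : (cl K c).length ≤ K.length := (List.length_filter_le _ _).trans (by simp)
  have h1 : ((range K.length).filter fun s => sh K c s = x).card ≤
      (range (K.length / (cl K c).length + 1)).card := by
    refine card_le_card_of_injOn (fun s => s / (cl K c).length) (fun s hs => ?_) fun s hs s' hs' h => ?_
    · simp only [coe_filter, mem_range, Set.mem_ofPred_eq, coe_range, Set.mem_Iio] at hs ⊢
      exact Nat.lt_succ_of_le (Nat.div_le_div_right hs.1.le)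
    · simp only [coe_filter, mem_range, Set.mem_ofPred_eq] at hs hs' h
      have h2 := getD_inj (cl_nodup K c) (Nat.mod_lt _ d0) (Nat.mod_lt _ d0) (hs.2.trans hs'.2.symm)
      have h3 : s % (cl K c).length = s' % (cl K c).length := Nat.ModEq.add_left_cancel' _ h2
      rw [← Nat.div_add_mod s (cl K c).length, h, h3, Nat.div_add_mod]
  rw [card_range] at h1
  have h4 := Nat.div_mul_le_self K.length (cl K c).length
  nlinarith

/-- the class as a finite set. -/
def cls (K : List ℕ) (k : ℕ) : Finset ℕ := (range K.length).filter fun j => K.getD j 0 = k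

theorem card_cls (K : List ℕ) (c : ℕ) : (cls K (K.getD c 0)).card = (cl K c).length := by
  rw [← List.toFinset_card_of_nodup (cl_nodup K c)]
  congr 1
  ext j
  simp [cls, mem_cl, -List.getD_eq_getElem?_getD]

theorem sh_le (hc : c < K.length) {G : ℕ → ℝ} (hG : ∀ x, 0 ≤ G x) :
    ∑ s ∈ range K.length, G (sh K c s) ≤
      2 * K.length * ∑ x ∈ cls K (K.getD c 0), G x / (cls K (K.getD c 0)).card := by
  have d0 : (0 : ℝ) < (cl K c).length := by exact_mod_cast Nat.zero_lt_of_lt (pos_spec hc).1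
  rw [← sum_fiberwise_of_maps_to (s := range K.length) (t := cls K (K.getD c 0))
    (g := fun s => sh K c s) fun s _ => by
      simpa [cls, -List.getD_eq_getElem?_getD] using mem_cl.1 (sh_mem hc s), mul_sum, card_cls]
  refine sum_le_sum fun x _ => ?_
  rw [sum_congr rfl (g := fun _ => G x) fun s hs => by rw [(mem_filter.1 hs).2], sum_const,
    nsmul_eq_mul, mul_div_assoc', le_div_iff₀ d0, mul_right_comm]
  exact mul_le_mul_of_nonneg_right (by exact_mod_cast sh_count hc x) (hG x)

theorem derand (K : List ℕ) (F : ℕ → ℕ → ℝ) : ∃ ρ : ℕ → ℕ,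
    ∑ c ∈ range K.length, ∑ x ∈ cls K (K.getD c 0), F c x / (cls K (K.getD c 0)).card ≤
      ∑ c ∈ range K.length, F c (ρ (K.getD c 0)) := by
  have h : ∀ k, ∃ r, ∑ c ∈ cls K k, ∑ x ∈ cls K k, F c x / (cls K k).card ≤
      ∑ c ∈ cls K k, F c r := by
    intro k
    rcases (cls K k).eq_empty_or_nonempty with h | h
    · simp [h]
    obtain ⟨r, -, hr⟩ := exists_max_image _ (fun x => ∑ c ∈ cls K k, F c x) h
    refine ⟨r, ?_⟩
    have d0 : (0 : ℝ) < (cls K k).card := by exact_mod_cast h.card_pos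
    simp only [← sum_div]
    rw [sum_comm, div_le_iff₀ d0, mul_comm, ← nsmul_eq_mul]
    exact sum_le_card_nsmul _ _ _ hr
  choose ρ hρ using h
  refine ⟨ρ, ?_⟩
  have m : ∀ c ∈ range K.length, K.getD c 0 ∈ (range K.length).image fun c => K.getD c 0 :=
    fun c hc => mem_image_of_mem _ hc
  rw [← sum_fiberwise_of_maps_to m, ← sum_fiberwise_of_maps_to m]
  refine sum_le_sum fun k _ => le_trans (le_of_eq ?_) ((hρ k).trans (le_of_eq ?_))
  · exact sum_congr rfl fun c hc => by rw [(mem_filter.1 hc).2]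
  · exact sum_congr rfl fun c hc => by rw [(mem_filter.1 hc).2]

theorem sh_derand1 (K : List ℕ) {F : ℕ → ℕ → ℝ} (hF : ∀ c x, 0 ≤ F c x) : ∃ ρ : ℕ → ℕ,
    ∑ c ∈ range K.length, ∑ s ∈ range K.length, F c (sh K c s) ≤
      2 * K.length * ∑ c ∈ range K.length, F c (ρ (K.getD c 0)) := by
  obtain ⟨ρ, hρ⟩ := derand K F
  refine ⟨ρ, le_trans ?_ (mul_le_mul_of_nonneg_left hρ (by positivity))⟩
  rw [mul_sum]
  exact sum_le_sum fun c hc => sh_le (mem_range.1 hc) (hF c)

theorem sh_derand2 (K : List ℕ) {F : ℕ → ℕ → ℝ} (hF : ∀ c x, 0 ≤ F c x) : ∃ ρ : ℕ → ℕ,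
    ∑ y ∈ range K.length, ∑ s ∈ range K.length, F (sh K y s) y ≤
      2 * K.length * ∑ c ∈ range K.length, F c (ρ (K.getD c 0)) := by
  obtain ⟨ρ, hρ⟩ := derand K F
  refine ⟨ρ, le_trans ?_ (mul_le_mul_of_nonneg_left hρ (by positivity))⟩
  have e : ∑ c ∈ range K.length, ∑ x ∈ cls K (K.getD c 0), F c x / (cls K (K.getD c 0)).card =
      ∑ y ∈ range K.length, ∑ c ∈ cls K (K.getD y 0), F c y / (cls K (K.getD y 0)).card := by
    simp only [cls, sum_filter]
    rw [sum_comm]
    refine sum_congr rfl fun y _ => sum_congr rfl fun c _ => ?_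
    by_cases h : K.getD y 0 = K.getD c 0
    · rw [if_pos h, if_pos h.symm, h]
    · rw [if_neg h, if_neg (Ne.symm h)]
  rw [e, mul_sum]
  exact sum_le_sum fun y hy => sh_le (G := fun c => F c y) (mem_range.1 hy) fun c => hF c y

end Vale.Agent.P334.Low
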