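import Vale.Agent.P334.Low.Feige
import Vale.Agent.P334.Low.Shift
import Vale.Agent.P334.Low.Metric
import Vale.Agent.P325.BasePCP
import Vale.Agent.P325.BaseRound
import Vale.Agent.P325.Pre
import Vale.Agent.P325.Pow
import Vale.Agent.P325.Alph
import Vale.Agent.P325.RepLC

/-! P334 lower bound: reduction from 3-SAT with gap `1 + 2/e - δ`. -/

namespace Vale.Agent.P334.Low

open Vale.Agent.Lib.H23 Vale.Agent.P333 Vale.Agent.P325 Finset Enc
open scoped BigOperators

variable {A B : Type} {t : ℕ}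

def KX (L : List (CP A B)) : List ℕ := L.map fun c => c.1 0

def KY (L : List (CP A B)) : List ℕ := L.map fun c => c.1 1

def pr (d : Code (A → B)) (L : List (CP A B)) (c : ℕ) : Code (A → B) :=
  (L.map fun c => c.2).getD c d

/-- an edge of the regular instance: a name and a projection. -/
def edge (d : Code (A → B)) (L : List (CP A B)) (y : ℕ) (s : ℕ × ℕ) : ℕ × Code (A → B) :=
  (sh (KX L) (sh (KY L) y s.1) s.2, pr d L (sh (KY L) y s.1))

def prs (m : ℕ) : List (ℕ × ℕ) := (List.range m).flatMap fun s => (List.range m).map fun s' => (s, s')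

abbrev Cli (t : ℕ) (A B : Type) : Type := (Fin t → ℕ × Code (A → B)) × Code (B → Fin t)

abbrev Fac (t : ℕ) (A : Type) : Type := ℕ × Code (Fin t × A)

theorem len_KX (L : List (CP A B)) : (KX L).length = L.length := List.length_map _
theorem len_KY (L : List (CP A B)) : (KY L).length = L.length := List.length_map _

theorem shY_lt {L : List (CP A B)} {y : ℕ} (hy : y < L.length) (s : ℕ) :
    sh (KY L) y s < L.length := len_KY L ▸ (mem_cl.1 (sh_mem (len_KY L ▸ hy) s)).1

theorem shX_lt {L : List (CP A B)} {y : ℕ} (hy : y < L.length) (s : ℕ) :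
    sh (KX L) y s < L.length := len_KX L ▸ (mem_cl.1 (sh_mem (len_KX L ▸ hy) s)).1

theorem edge_inj {d : Code (A → B)} {L : List (CP A B)} {y y' : ℕ} (hy : y < L.length)
    (hy' : y' < L.length) {s : ℕ × ℕ} (h : (edge d L y s).1 = (edge d L y' s).1) : y = y' :=
  sh_inj (len_KY L ▸ hy) (len_KY L ▸ hy')
    (sh_inj (len_KX L ▸ shY_lt hy _) (len_KX L ▸ shY_lt hy' _) h)

theorem satP_iff (d : Code (A → B)) (L : List (CP A B)) (f : ℕ → A) (g : ℕ → B) {c : ℕ}
    (hc : c < L.length) :
    (pr d L c).val (f ((KX L).getD c 0)) = g ((KY L).getD c 0) ↔ satP f g L[c] := by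
  simp [pr, KX, KY, hc, satP]

theorem sum_getD {α : Type} (l : List α) (d : α) (F : α → ℝ) :
    ∑ j ∈ range l.length, F (l.getD j d) = l.length * avg l F := by
  rcases l.eq_nil_or_concat with rfl | h
  · simp
  have h0 : (l.length : ℝ) ≠ 0 := by
    obtain ⟨_, _, rfl⟩ := h
    simp; positivity
  rw [avg_eq_expect, Fintype.expect_eq_sum_div_card, Fintype.card_fin, mul_div_cancel₀ _ h0,
    sum_range]
  exact sum_congr rfl fun i _ => by simp

theorem reg_sound (d : Code (A → B)) {L : List (CP A B)} (hL : L ≠ []) {δ : ℝ}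
    (hs : ∀ f g, avg L (fun c => ind (satP f g c)) ≤ δ) (f : ℕ → A) (g : ℕ → B) :
    (𝔼 y : Fin L.length, 𝔼 e : Fin (prs L.length).length,
      ind ((edge d L y ((prs L.length).get e)).2.val (f (edge d L y ((prs L.length).get e)).1)
        = g y)) ≤ 4 * δ := by
  have m0 : (0 : ℝ) < L.length := by exact_mod_cast List.length_pos_iff.2 hL
  let I : ℕ → ℕ → ℕ → ℝ := fun c x y => ind ((pr d L c).val (f x) = g y)
  obtain ⟨ρ, hρ⟩ := sh_derand2 (KY L) (F := fun c y => ∑ s ∈ range L.length, I c (sh (KX L) c s) y)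
    fun _ _ => sum_nonneg fun _ _ => ind_nonneg _
  obtain ⟨σ, hσ⟩ := sh_derand1 (KX L) (F := fun c x => I c x (ρ ((KY L).getD c 0)))
    fun _ _ => ind_nonneg _
  rw [len_KY] at hρ
  rw [len_KX] at hσ
  have h1 : ∑ c ∈ range L.length, I c (σ ((KX L).getD c 0)) (ρ ((KY L).getD c 0)) ≤
      L.length * δ := by
    obtain ⟨c0, -⟩ := List.exists_mem_of_ne_nil L hL
    refine le_trans (le_of_eq ?_) (mul_le_mul_of_nonneg_left (hs (f ∘ σ) (g ∘ ρ)) m0.le)
    rw [← sum_getD L c0]
    refine sum_congr rfl fun c hc => ind_congr ?_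
    rw [List.getD_eq_getElem _ _ (mem_range.1 hc), ← satP_iff d L _ _ (mem_range.1 hc)]
    rfl
  have h2 : ∀ y : ℕ, (𝔼 e : Fin (prs L.length).length,
      ind ((edge d L y ((prs L.length).get e)).2.val (f (edge d L y ((prs L.length).get e)).1)
        = g y)) = (∑ s ∈ range L.length, ∑ s' ∈ range L.length,
          I (sh (KY L) y s) (sh (KX L) (sh (KY L) y s) s') y) / L.length / L.length := by
    intro y
    rw [← avg_eq_expect (prs L.length) fun s => ind ((edge d L y s).2.val (f (edge d L y s).1) = g y),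
      prs, avg_flatMap (k := L.length) fun _ _ => by simp]
    simp only [avg_map, avg_range, ← sum_div]
    rfl
  simp only [h2]
  rw [← avg_range' L.length fun y => (∑ s ∈ range L.length, ∑ s' ∈ range L.length,
    I (sh (KY L) y s) (sh (KX L) (sh (KY L) y s) s') y) / L.length / L.length, avg_range,
    ← sum_div, ← sum_div, div_le_iff₀ m0, div_le_iff₀ m0, div_le_iff₀ m0]
  have h3 := mul_le_mul_of_nonneg_left h1 (show (0 : ℝ) ≤ 2 * L.length by positivity)
  have h4 := mul_le_mul_of_nonneg_left (hσ.trans h3) (show (0 : ℝ) ≤ 2 * L.length by positivity)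
  linarith

variable [Fintype A] [DecidableEq A] [Fintype B] [DecidableEq B]

noncomputable def clis (t : ℕ) (d : Code (A → B)) (L : List (CP A B)) : List (Cli t A B) :=
  (List.range L.length).flatMap fun y => locRed t (prs L.length) fun e (z : B → Fin t) =>
    (fun i => edge d L y (e i), ⟨z⟩)

noncomputable def facs (t : ℕ) (A : Type) [Fintype A] (m : ℕ) : List (Fac t A) :=
  locMap (List.range m) fun x (ω : Fin t × A) => (x, ⟨ω⟩)

def cov (f : Fac t A) (j : Cli t A B) : Bool :=
  decide ((j.1 f.2.val.1).1 = f.1) &&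
    decide (j.2.val ((j.1 f.2.val.1).2.val f.2.val.2) = f.2.val.1)

/-- the reduction from label cover. -/
noncomputable def red (d : Code (A → B)) (f0 : Fac t A) (j0 : Cli t A B) (L : List (CP A B)) :
    Inst × ℚ :=
  (inst (facs t A L.length).length (clis t d L).length (t * L.length) fun u j =>
    cov ((facs t A L.length).getD u f0) ((clis t d L).getD j j0), ((clis t d L).length : ℕ))

theorem pt_cov {α : Type} [Enc α] {f : α → Fac t A} {j : α → Cli t A B} (hf : PT f) (hj : PT j) :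
    PT fun x => cov (f x) (j x) :=
  pt_caseCode (g := fun (ω : Fin t × A) x => decide (((j x).1 ω.1).1 = (f x).1) &&
      decide ((j x).2.val (((j x).1 ω.1).2.val ω.2) = ω.1)) hf.snd fun ω =>
    PT.and (pt_decEq (pt_apply hj.fst ω.1).fst hf.fst)
      (pt_caseCode (g := fun (z : B → Fin t) x => decide (z (((j x).1 ω.1).2.val ω.2) = ω.1)) hj.snd
        fun z => pt_ofFin (fun p : A → B => decide (z (p ω.2) = ω.1)) (pt_apply hj.fst ω.1).snd)

omit [DecidableEq B] in
theorem pt_edge (d : Code (A → B)) {α : Type} [Enc α] {L : α → List (CP A B)} {y : α → ℕ}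
    {s : α → ℕ × ℕ} (hL : PT L) (hy : PT y) (hs : PT s) : PT fun x => edge d (L x) (y x) (s x) := by
  have hX : PT fun x => KX (L x) :=
    PT.map (f := fun _ (c : CP A B) => c.1 0) (pt_apply PT.snd'.fst 0) hL
  have hY : PT fun x => KY (L x) :=
    PT.map (f := fun _ (c : CP A B) => c.1 1) (pt_apply PT.snd'.fst 1) hL
  have hc := pt_sh hY hy hs.fst
  exact PT.pair (pt_sh hX hc hs.snd)
    (PT.getD (PT.map (f := fun _ (c : CP A B) => c.2) PT.snd'.snd hL) hc (PT.const d))

theorem pt_clis (t : ℕ) (d : Code (A → B)) : PT (clis t d) := by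
  have hr : PT fun L : List (CP A B) => List.range L.length := pt_rangeLen PT.id
  have hp : PT fun L : List (CP A B) => prs L.length :=
    pt_flatMap (f := fun (L : List (CP A B)) s => (List.range L.length).map fun s' => (s, s'))
      (PT.map (f := fun (p : List (CP A B) × ℕ) s' => (p.2, s')) (PT.fst'.snd.pair PT.snd')
        (hr.comp PT.fst')) hr
  exact pt_flatMap (f := fun (L : List (CP A B)) y => locRed t (prs L.length)
      fun e (z : B → Fin t) => ((fun i => edge d L y (e i), ⟨z⟩) : Cli t A B))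
    (pt_locRed (g := fun (p : List (CP A B) × ℕ) e (z : B → Fin t) =>
      ((fun i => edge d p.1 p.2 (e i), ⟨z⟩) : Cli t A B)) t (hp.comp PT.fst') fun z =>
      PT.pair (pt_pi fun i => pt_edge d PT.fst'.fst PT.fst'.snd (pt_apply PT.snd' i))
        (PT.const _)) hr

theorem pt_red (d : Code (A → B)) (f0 : Fac t A) (j0 : Cli t A B) : PT (red d f0 j0) := by
  have hF : PT fun L : List (CP A B) => facs t A L.length :=
    pt_locMap (g := fun _ x (ω : Fin t × A) => ((x, ⟨ω⟩) : Fac t A)) (pt_rangeLen PT.id)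
      fun ω => PT.snd'.pair (PT.const _)
  have hJ := pt_clis t d
  exact PT.pair (pt_inst (PU.len hF) (PU.len hJ) (PT.mul (PT.const t) PT.id.length)
    (pt_cov (PT.getD (hF.comp PT.fst') PT.snd'.fst (PT.const f0))
      (PT.getD (hJ.comp PT.fst') PT.snd'.snd (PT.const j0)))) (pt_qcast hJ.length)

omit [DecidableEq A] in
theorem len_facs (m : ℕ) : (facs t A m).length = m * (t * Fintype.card A) := by
  rw [facs, length_locMap]; simp

omit [Fintype A] [DecidableEq A] in
theorem clis_ne (ht : 0 < t) (d : Code (A → B)) {L : List (CP A B)} (hL : L ≠ []) :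
    0 < (clis t d L).length := by
  have m0 := List.length_pos_iff.2 hL
  rw [clis, length_flatMap_const fun _ _ => length_locRed _ _ _, prs,
    length_flatMap_const (k := L.length) fun _ _ => by simp]
  simp only [List.length_range, Fintype.card_fun, Fintype.card_fin]
  positivity

omit [DecidableEq A] in
theorem red_complete (ht : 0 < t) (d : Code (A → B)) (f0 : Fac t A) (j0 : Cli t A B)
    {L : List (CP A B)} (hL : L ≠ []) {f : ℕ → A} {g : ℕ → B} (h : ∀ c ∈ L, satP f g c) :
    ∃ (S : Finset ℕ) (hS : S.Nonempty), Feas (red d f0 j0 L).1 S ∧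
      cost (red d f0 j0 L).1 S hS ≤ (red d f0 j0 L).2 := by
  have m0 := List.length_pos_iff.2 hL
  have hu : ∀ p : Fin t × Fin L.length, ∃ u < (facs t A L.length).length,
      (facs t A L.length).getD u f0 = ((p.2 : ℕ), ⟨(p.1, f ((KX L).getD p.2 0))⟩) := by
    intro p
    obtain ⟨u, hu, e⟩ := List.getElem_of_mem (l := facs t A L.length)
      (a := ((p.2 : ℕ), ⟨(p.1, f ((KX L).getD p.2 0))⟩))
      (mem_locMap.2 ⟨p.2, List.mem_range.2 p.2.2, _, rfl⟩)
    exact ⟨u, hu, by rw [List.getD_eq_getElem _ _ hu, e]⟩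
  choose u hu1 hu2 using hu
  have hS : (univ.image u).Nonempty := ⟨_, mem_image_of_mem u (mem_univ (⟨0, ht⟩, ⟨0, m0⟩))⟩
  have hlt : ∀ v ∈ univ.image u, v < (facs t A L.length).length := fun v hv => by
    obtain ⟨p, -, rfl⟩ := mem_image.1 hv
    exact hu1 p
  refine ⟨_, hS, feas_inst.2 ⟨hlt, card_image_le.trans (by simp)⟩, ?_⟩
  rw [← Rat.cast_le (K := ℝ), red, cost_inst hS hlt, sum_eq_zero fun j hj => ind_of_not fun hc => ?_]
  · simp
  have hm : (clis t d L).getD j j0 ∈ clis t d L := by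
    rw [List.getD_eq_getElem _ _ (mem_range.1 hj)]
    exact List.getElem_mem _
  obtain ⟨y, hy, hm⟩ := List.mem_flatMap.1 hm
  obtain ⟨e, -, z, hm⟩ := mem_locRed.1 hm
  have hy := List.mem_range.1 hy
  set i := z (g ((KY L).getD y 0)) with hi
  have hc1 := shY_lt hy (e i).1
  have hc2 := hc _ (mem_image_of_mem u (mem_univ (i, ⟨_, shX_lt hc1 (e i).2⟩)))
  rw [hu2, ← hm] at hc2
  have h1 := (satP_iff d L f g hc1).2 (h _ (List.getElem_mem _))
  rw [(mem_cl.1 (sh_mem (len_KY L ▸ hy) (e i).1)).2,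
    ← (mem_cl.1 (sh_mem (len_KX L ▸ hc1) (e i).2)).2] at h1
  simp only [cov, edge, h1, ← hi, decide_true, Bool.and_self] at hc2
  exact absurd hc2 (by simp)

omit [DecidableEq A] in
theorem red_sound [Nonempty A] [Nonempty B] (ht : 2 ≤ t) (d : Code (A → B)) (f0 : Fac t A)
    (j0 : Cli t A B) {L : List (CP A B)} (hL : L ≠ []) {δ : ℝ} (hδ : 0 ≤ δ)
    (hs : ∀ f g, avg L (fun c => ind (satP f g c)) ≤ δ) (W : ℕ) (S : Finset ℕ) (hS : S.Nonempty)
    (hF : Feas (red d f0 j0 L).1 S) :
    (1 + 2 * ((1 - 1 / (t : ℝ)) ^ t - (1 - 1 / (t : ℝ)) ^ W - (t * W) ^ 2 * (4 * δ))) *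
      (red d f0 j0 L).2 ≤ cost (red d f0 j0 L).1 S hS := by
  classical
  have m0 := List.length_pos_iff.2 hL
  obtain ⟨h1, h2⟩ := feas_inst.1 hF
  have : Nonempty (Fin L.length) := ⟨⟨0, m0⟩⟩
  have : Nonempty (Fin (prs L.length).length) := ⟨⟨0, by
    rw [prs, length_flatMap_const (k := L.length) fun _ _ => by simp]
    simpa using hL⟩⟩
  have key := feige (Y := Fin L.length) (fun y e => (edge d L y ((prs L.length).get e)).1)
    (fun e y y' h => Fin.ext (edge_inj y.2 y'.2 h))
    (fun y e => (edge d L y ((prs L.length).get e)).2.val) (δ := 4 * δ) (by linarith)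
    (fun f g => by
      have := reg_sound d hL hs f fun n => if h : n < L.length then g ⟨n, h⟩ else g ⟨0, m0⟩
      simpa only [Fin.is_lt, dif_pos, Fin.eta] using this) t W ht
    (S.image fun u => (((facs t A L.length).getD u f0).2.val.1, ((facs t A L.length).getD u f0).1,
      ((facs t A L.length).getD u f0).2.val.2)) (card_image_le.trans (by simpa using h2))
  rw [red, cost_inst hS h1, sum_getD (clis t d L) j0 fun j =>
    ind (∀ u ∈ S, cov ((facs t A L.length).getD u f0) j = false)]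
  have h3 : _ ≤ avg (clis t d L) fun j =>
      ind (∀ u ∈ S, cov ((facs t A L.length).getD u f0) j = false) := key.trans (by
    rw [clis, avg_flatMap fun _ _ => length_locRed _ _ _, avg_range']
    refine expect_le_expect fun y _ => ?_
    rw [avg_locRed]
    refine expect_le_expect fun e _ => expect_le_expect fun z _ => ind_mono fun h u hu => ?_
    rw [← Bool.not_eq_true, cov, Bool.and_eq_true, decide_eq_true_iff, decide_eq_true_iff]
    exact fun hc => h _ _ (mem_image.2 ⟨u, hu, by rw [← hc.1]⟩) hc.2)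
  have h4 : (0 : ℝ) ≤ (clis t d L).length := Nat.cast_nonneg _
  simp only [Rat.cast_natCast]
  nlinarith

/-- Hardness of approximating metric `k`-median within `1 + 2/e - δ`. -/
theorem lower (δ : ℝ) (hδ : 0 < δ) : ∃ (f : CNF → Inst × ℚ)
    (M : Turing.TM2ComputableInPolyTime codeCNF (bPair codeInst bRat) f),
    (∀ j, Finite (M.tm.Γ j)) ∧ ∀ φ : CNF, Valid (f φ).1 ∧ 0 < (f φ).2 ∧
      (Sat φ → ∃ (S : Finset ℕ) (hS : S.Nonempty), Feas (f φ).1 S ∧ cost (f φ).1 S hS ≤ (f φ).2) ∧
      (¬ Sat φ → ∀ (S : Finset ℕ) (hS : S.Nonempty), Feas (f φ).1 S →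
        (1 + 2 / Real.exp 1 - δ) * (f φ).2 ≤ cost (f φ).1 S hS) := by
  obtain ⟨t, W, ε, ht, hε, hp⟩ := params (half_pos hδ)
  obtain ⟨A, B, _, _, ⟨a⟩, _, _, ⟨b⟩, r, hr, h⟩ :=
    lc rep (pcp (round pre pow alph)) (ε / 4) (by positivity)
  have : Nonempty A := ⟨a⟩
  have : Nonempty B := ⟨b⟩
  let d : Code (A → B) := ⟨fun _ => b⟩
  let f0 : Fac t A := (0, ⟨(⟨0, by omega⟩, a)⟩)
  let j0 : Cli t A B := (fun _ => (0, d), ⟨fun _ => ⟨0, by omega⟩⟩)
  obtain ⟨M, hM⟩ := tm_of_pt ((pt_red d f0 j0).comp hr) (bPair codeInst bRat)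
    (fun φ => red d f0 j0 (r φ)) fun φ => ser_pair ser_inst ser_rat _
  refine ⟨_, M, hM, fun φ => ?_⟩
  obtain ⟨h1, h2, h3⟩ := h φ
  have m0 := List.length_pos_iff.2 h1
  have hJ : 0 < (red d f0 j0 (r φ)).2 := Nat.cast_pos.2 (clis_ne (by omega) d h1)
  refine ⟨valid_inst (Nat.mul_pos (by omega) m0) ?_, hJ, fun hs => ?_, fun hs S hS hF => ?_⟩
  · rw [len_facs, mul_comm t]
    exact Nat.mul_le_mul_left _ (Nat.le_mul_of_pos_right _ Fintype.card_pos)
  · obtain ⟨f, g, hfg⟩ := h2 hs
    exact red_complete (by omega) d f0 j0 h1 hfg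
  · refine le_trans (mul_le_mul_of_nonneg_right ?_ (by exact_mod_cast hJ.le))
      (red_sound ht d f0 j0 h1 (by positivity) (h3 hs) W S hS hF)
    rw [mul_div_cancel₀ ε (by norm_num), div_eq_mul_one_div 2]
    linarith

end Vale.Agent.P334.Low
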